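import Crest.Agent.N336.Glue
import Crest.Agent.N336.R.Main
import Crest.Agent.N336.C.Comb
import Crest.Agent.N336.C.Rig
import Crest.Agent.N336.Eng.Main
import Crest.Agent.N336.Eng.K
import Crest.Agent.N336.Eng.G

/-!
# Row 336: final assembly of the rigidity statement (helper88)
-/

namespace Crest.Agent.N336

theorem rig_all : C.RigStmt :=
  C.rig Eng.En.eng (R.rep Eng.kk Eng.gg) C.comb

end Crest.Agent.N336
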