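import Crest.Prelude.Def_LatticeSpin

/-!
# Row 336 (S0522 area law, S0523 PEPS): frozen top-level interface (helper50)

`Sys` is a gapped local Hamiltonian on sites with injective positions in `ℤ²` and a graph whose
edges have `ℓ¹` length one (covers `latticeGraph Λ₀` and `gridGraph L` without transport).

DAG: `EntStmt` (entropy library) ; `AmpStmt` (amplification) ; `CoreStmt` (thin mutual
information, notes H50 items 1-7) ; `TBStmt` from Core + Amp + Ent ; `AreaStmt` from TB + Ent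
(note 103) ; `PatchStmt` (patch lemma) ; S0523 from Area + Core + Amp + Patch + Ent
(`N336/P/Defs.lean`).
-/

set_option autoImplicit false

namespace Crest.Agent.N336

open Crest.MathPhysics.LatticeSpin
open scoped Matrix

/-- Vectors on the sites `Λ`. -/
abbrev Vec (Λ : Type) (q : ℕ) := EuclideanSpace ℂ (Λ → Fin q)

/-- Operators on the sites `Λ`. -/
abbrev Op (Λ : Type) (q : ℕ) := Matrix (Λ → Fin q) (Λ → Fin q) ℂ

section basic

variable {Λ : Type} [Fintype Λ] [DecidableEq Λ] {q : ℕ}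

/-- Action of an operator on a vector. -/
noncomputable abbrev act (M : Op Λ q) (v : Vec Λ q) : Vec Λ q := Matrix.toEuclideanLin M v

/-- Operator norm (for any square complex matrix). -/
noncomputable abbrev opN {ι : Type} [Fintype ι] [DecidableEq ι] (M : Matrix ι ι ℂ) : ℝ :=
  ‖Matrix.toEuclideanCLM (𝕜 := ℂ) (n := ι) M‖

/-- Entanglement entropy. -/
noncomputable abbrev S (Ω : Vec Λ q) (A : Finset Λ) : ℝ := entanglementEntropy Ω A

/-- Mutual information of two sets of sites. -/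
noncomputable def MI (Ω : Vec Λ q) (A B : Finset Λ) : ℝ := S Ω A + S Ω B - S Ω (A ∪ B)

/-- Two sheets with the region `A` exchanged: the first factor reads sheet `true` on `A` and sheet
`false` elsewhere, the second factor reads the other sheet. `swp ∅ Ω = Ω ⊗ Ω`. -/
noncomputable def swp (A : Finset Λ) (Ω : Vec Λ q) : Vec (Bool × Λ) q :=
  WithLp.toLp 2 fun σ =>
    Ω (fun x => σ (decide (x ∈ A), x)) * Ω (fun x => σ (!decide (x ∈ A), x))

/-- Exchange form of decoupling: a unitary on both copies of the buffer `(A ∪ F)ᶜ` maps `Ω ⊗ Ω`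
to the exchanged state up to `ε`. -/
def Exch (Ω : Vec Λ q) (A F : Finset Λ) (ε : ℝ) : Prop :=
  ∃ U : Op (Bool × Λ) q, U ∈ Matrix.unitaryGroup (Bool × Λ → Fin q) ℂ ∧
    IsSupportedOn U (Finset.univ.filter fun p : Bool × Λ => p.2 ∉ A ∧ p.2 ∉ F) ∧
    ‖act U (swp ∅ Ω) - swp A Ω‖ ≤ ε

/-- The operator `|a⟩⟨a'|` on the region `A`, identity elsewhere. -/
noncomputable def rk1 (A : Finset Λ) (a a' : (↥A → Fin q) → ℂ) : Op Λ q :=
  localOp A (Matrix.vecMulVec a (star a'))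

end basic

/-- A gapped local Hamiltonian on sites with positions in `ℤ²`. -/
structure Sys (q R : ℕ) (J Δ : ℝ) (Λ : Type) [Fintype Λ] [DecidableEq Λ] where
  pos : Λ → ℤ × ℤ
  inj : Function.Injective pos
  G : SimpleGraph Λ
  adj : ∀ x y, G.Adj x y → |(pos x).1 - (pos y).1| + |(pos x).2 - (pos y).2| = 1
  h : Finset Λ → Op Λ q
  adm : IsAdmissibleInteraction G R J h
  Ω : Vec Λ q
  E : ℝ
  gap : IsGappedGroundVector (∑ X, h X) Ω E Δ

section chart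

variable {q R : ℕ} {J Δ : ℝ} {Λ : Type} [Fintype Λ] [DecidableEq Λ]

/-- A chart: a set of sites `U` and an ambient `1`-Lipschitz (king moves) function `ψ` whose
levels `0..m` have at most `n` points, whose sublevel set has at most `n²` points, and such that
no edge leaves `U` inside the sublevel set `ψ ≤ m`. -/
structure Chart (s : Sys q R J Δ Λ) (n m : ℕ) where
  U : Finset Λ
  ψ : ℤ × ℤ → ℤ
  lip : ∀ z w : ℤ × ℤ, |z.1 - w.1| ≤ 1 → |z.2 - w.2| ≤ 1 → ψ z ≤ ψ w + 1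
  lev : ∀ k : ℤ, 0 ≤ k → k ≤ m → ∀ T : Finset (ℤ × ℤ), (∀ z ∈ T, ψ z = k) → T.card ≤ n
  tot : ∀ T : Finset (ℤ × ℤ), (∀ z ∈ T, ψ z ≤ m) → T.card ≤ n ^ 2
  closed : ∀ x y, s.G.Adj x y → x ∈ U → y ∉ U → (m : ℤ) < ψ (s.pos x)

/-- The sublevel region `P_k = U ∩ {ψ ≤ k}` of a chart. -/
def Chart.P {s : Sys q R J Δ Λ} {n m : ℕ} (c : Chart s n m) (k : ℤ) : Finset Λ :=
  c.U.filter fun x => c.ψ (s.pos x) ≤ k

open Classical in
/-- Number of graph edges from `A` to its complement. -/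
noncomputable def Sys.bd (s : Sys q R J Δ Λ) (A : Finset Λ) : ℕ :=
  ((A ×ˢ (Finset.univ \ A)).filter fun p => s.G.Adj p.1 p.2).card

open Classical in
/-- Number of non-zero terms meeting both `A` and its complement. -/
noncomputable def Sys.cross (s : Sys q R J Δ Λ) (A : Finset Λ) : ℕ :=
  (Finset.univ.filter fun X : Finset Λ =>
    s.h X ≠ 0 ∧ (∃ x ∈ X, x ∈ A) ∧ (∃ x ∈ X, x ∉ A)).card

end chart

/-- Entropy library for pure states: symmetry, bounds, strong subadditivity, and continuity of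
the mutual information in the exchange form. -/
def EntStmt : Prop :=
  ∀ (q : ℕ) (Λ : Type) [Fintype Λ] [DecidableEq Λ] (Ω : Vec Λ q), ‖Ω‖ = 1 →
    (∀ A : Finset Λ, S Ω Aᶜ = S Ω A) ∧
    (∀ A : Finset Λ, 0 ≤ S Ω A ∧ S Ω A ≤ A.card * Real.log q) ∧
    (∀ A B : Finset Λ, S Ω (A ∪ B) + S Ω (A ∩ B) ≤ S Ω A + S Ω B) ∧
    (∀ (A F : Finset Λ) (ε : ℝ), Disjoint A F → 0 ≤ ε → Exch Ω A F ε →
      MI Ω A F ≤ 10 * Real.sqrt ε * (A.card * Real.log q + 1))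

/-- Amplification: small mutual information of fattened regions gives an exponentially accurate
exchange unitary. -/
def AmpStmt : Prop :=
  ∀ (q R : ℕ) (J Δ : ℝ), 1 ≤ q → 0 < J → 0 < Δ → ∃ c C : ℝ, 0 < c ∧ 0 < C ∧
    ∀ (Λ : Type) [Fintype Λ] [DecidableEq Λ] (s : Sys q R J Δ Λ) (A F A' F' : Finset Λ)
      (w : ℕ) (t : ℝ), Disjoint A' F' →
      (∀ x ∈ A, ∀ y, s.G.edist x y ≤ w → y ∈ A') →
      (∀ x ∈ F, ∀ y, s.G.edist x y ≤ w → y ∈ F') →
      MI s.Ω A' F' ≤ t →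
      Exch s.Ω A F (C * (((A ∪ F)ᶜ).card + 1) * Real.exp (t - c * w))

/-- CORE (H50 items 1-7): thin-buffer bound for the mutual information. -/
def CoreStmt : Prop :=
  ∀ (q R : ℕ) (J Δ : ℝ), 1 ≤ q → 0 < J → 0 < Δ → ∃ γ C : ℝ, 0 < γ ∧ γ < 1 / 4 ∧ 0 < C ∧
    ∀ (Λ : Type) [Fintype Λ] [DecidableEq Λ] (s : Sys q R J Δ Λ) (n m : ℕ) (c : Chart s n m),
      1 ≤ n → (n : ℝ) ^ (1 - γ) ≤ m →
      MI s.Ω (c.P 0) (c.P m)ᶜ ≤ C * (n : ℝ) ^ (1 - 2 * γ)

/-- Thin-buffer decoupling (from Core, Amp, Ent). -/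
def TBStmt : Prop :=
  ∀ (q R : ℕ) (J Δ : ℝ), 1 ≤ q → 0 < J → 0 < Δ → ∃ γ C : ℝ, 0 < γ ∧ γ < 1 / 4 ∧ 0 < C ∧
    ∀ (Λ : Type) [Fintype Λ] [DecidableEq Λ] (s : Sys q R J Δ Λ) (n m : ℕ) (c : Chart s n m),
      1 ≤ n → (n : ℝ) ^ (1 - γ) ≤ m →
      MI s.Ω (c.P 0) (c.P m)ᶜ ≤ C * Real.exp (-Real.sqrt n)

/-- The area law in `Sys` form (gives S0522). -/
def AreaStmt : Prop :=
  ∀ (q R : ℕ) (J Δ : ℝ), 1 ≤ q → 0 < J → 0 < Δ → ∃ C : ℝ, 0 < C ∧
    ∀ (Λ : Type) [Fintype Λ] [DecidableEq Λ] (s : Sys q R J Δ Λ) (A : Finset Λ),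
      S s.Ω A ≤ C * s.bd A

/-- Patch lemma: for a decreasing chain `A 0 ⊇ A 1 ⊇ …` of `m` regions, each non-zero term crossing
at most one of them, `Ω` is fixed up to `exp (-c t √(m/nb))` by an orthogonal projector which is a
sum of at most `m exp (C (s₀ + t))` orthogonal rank-one cylinder projectors. -/
def PatchStmt : Prop :=
  ∀ (q R : ℕ) (J Δ : ℝ), 1 ≤ q → 0 < J → 0 < Δ → ∃ c C : ℝ, 0 < c ∧ 0 < C ∧
    ∀ (Λ : Type) [Fintype Λ] [DecidableEq Λ] (s : Sys q R J Δ Λ) (m nb : ℕ)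
      (A : Fin m → Finset Λ) (s₀ t : ℝ), 1 ≤ m → m ≤ nb → 0 ≤ s₀ → 1 ≤ t →
      (∀ i j, i ≤ j → A j ⊆ A i) →
      (∀ X : Finset Λ, s.h X ≠ 0 → ∀ i j, i < j → (∃ x ∈ X, x ∈ A j) → X ⊆ A i) →
      (∀ j, s.cross (A j) ≤ nb) → (∀ j, S s.Ω (A j) ≤ s₀) →
      ∃ (B : ℕ) (j : Fin B → Fin m) (a : ∀ α, (↥(A (j α)) → Fin q) → ℂ),
        (B : ℝ) ≤ m * Real.exp (C * (s₀ + t)) ∧
        (∀ α, ∑ σ, ‖a α σ‖ ^ 2 = 1) ∧
        (∀ α β, α ≠ β → rk1 (A (j α)) (a α) (a α) * rk1 (A (j β)) (a β) (a β) = 0) ∧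
        ‖act (∑ α, rk1 (A (j α)) (a α) (a α)) s.Ω - s.Ω‖ ≤
          Real.exp (-(c * t * Real.sqrt ((m : ℝ) / nb)))

end Crest.Agent.N336
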