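import Crest.Agent.N336.Defs

/-!
# Row 336: thin-buffer decoupling `tb : EntStmt → CoreStmt → AmpStmt → TBStmt` (helper43)
-/

set_option autoImplicit false

namespace Crest.Agent.N336

open Crest.MathPhysics.LatticeSpin Filter

section chart

variable {q R : ℕ} {J Δ : ℝ} {Λ : Type} [Fintype Λ] [DecidableEq Λ] {s : Sys q R J Δ Λ} {n m : ℕ}

theorem Chart.mem_P (c : Chart s n m) {k : ℤ} {x : Λ} :
    x ∈ c.P k ↔ x ∈ c.U ∧ c.ψ (s.pos x) ≤ k := by
  simp [Chart.P]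

theorem Chart.P_mono (c : Chart s n m) {k k' : ℤ} (h : k ≤ k') : c.P k ⊆ c.P k' := by
  intro x hx
  rw [c.mem_P] at hx ⊢
  exact ⟨hx.1, hx.2.trans h⟩

theorem Chart.adj_mem (c : Chart s n m) {k : ℤ} (hk : k ≤ m) {x y : Λ} (hx : x ∈ c.P k)
    (h : s.G.Adj x y) : y ∈ c.P (k + 1) := by
  rw [c.mem_P] at hx ⊢
  have e := s.adj _ _ h
  refine ⟨?_, ?_⟩
  · by_contra hy
    have := c.closed x y h hx.1 hy
    omega
  · have h1 := abs_nonneg ((s.pos x).1 - (s.pos y).1)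
    have h2 := abs_nonneg ((s.pos x).2 - (s.pos y).2)
    have := c.lip (s.pos y) (s.pos x) (by rw [abs_sub_comm]; omega) (by rw [abs_sub_comm]; omega)
    omega

theorem Chart.walk_mem (c : Chart s n m) {x y : Λ} (p : s.G.Walk x y) :
    ∀ k : ℤ, k + p.length ≤ m + 1 → x ∈ c.P k → y ∈ c.P (k + p.length) := by
  induction p with
  | nil => intro k _ hx; simpa using hx
  | cons h p ih =>
    intro k hk hx
    simp only [SimpleGraph.Walk.length_cons] at hk ⊢
    push_cast at hk ⊢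
    have := ih (k + 1) (by omega) (c.adj_mem (by omega) hx h)
    rwa [show k + 1 + (p.length : ℤ) = k + (p.length + 1) by ring] at this

/-- Graph distance versus the levels of a chart. -/
theorem Chart.edist_mem (c : Chart s n m) {x y : Λ} {k : ℤ} {w : ℕ} (hk : k + w ≤ m + 1)
    (hx : x ∈ c.P k) (h : s.G.edist x y ≤ w) : y ∈ c.P (k + w) := by
  have hne : s.G.edist x y ≠ ⊤ := ne_top_of_le_ne_top (ENat.natCast_ne_top w) h
  obtain ⟨p, hp⟩ := SimpleGraph.exists_walk_of_edist_ne_top hne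
  rw [← hp] at h
  have hl : p.length ≤ w := by exact_mod_cast h
  exact c.P_mono (by omega) (c.walk_mem p k (by omega) hx)

theorem Chart.card_P (c : Chart s n m) {k : ℤ} (hk : k ≤ m) : (c.P k).card ≤ n ^ 2 := by
  rw [← Finset.card_image_of_injective _ s.inj]
  refine c.tot _ fun z hz => ?_
  obtain ⟨x, hx, rfl⟩ := Finset.mem_image.1 hz
  exact (c.mem_P.1 hx).2.trans hk

/-- The chart shifted by `a`, of width `w`. -/
def Chart.shift (c : Chart s n m) (a w : ℕ) (h : a + w ≤ m) : Chart s n w where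
  U := c.U
  ψ z := c.ψ z - a
  lip z z' h1 h2 := by have := c.lip z z' h1 h2; omega
  lev k h0 hk T hT := c.lev (k + a) (by omega) (by omega) T fun z hz => by
    have := hT z hz; omega
  tot T hT := c.tot T fun z hz => by have := hT z hz; omega
  closed x y h1 h2 h3 := by have := c.closed x y h1 h2 h3; omega

theorem Chart.shift_P (c : Chart s n m) (a w : ℕ) (h : a + w ≤ m) (k : ℤ) :
    (c.shift a w h).P k = c.P (k + a) := by
  ext x
  simp only [Chart.mem_P, Chart.shift]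
  exact and_congr_right fun _ => by omega

end chart

/-- A smaller power is eventually dominated. -/
theorem ev_rpow_le {a b K c : ℝ} (hab : a < b) (hc : 0 < c) :
    ∀ᶠ n : ℕ in atTop, K * (n : ℝ) ^ a ≤ c * (n : ℝ) ^ b := by
  have h1 : Tendsto (fun n : ℕ => (n : ℝ) ^ (b - a)) atTop atTop :=
    (tendsto_rpow_atTop (sub_pos.2 hab)).comp tendsto_natCast_atTop_atTop
  filter_upwards [h1.eventually_ge_atTop (K / c), eventually_ge_atTop 1] with n h2 h3
  have hn : (0 : ℝ) < n := by exact_mod_cast h3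
  have e : (n : ℝ) ^ b = (n : ℝ) ^ (b - a) * (n : ℝ) ^ a := by
    rw [← Real.rpow_add hn]; ring_nf
  rw [e, ← mul_assoc]
  refine mul_le_mul_of_nonneg_right ?_ (by positivity)
  rw [div_le_iff₀ hc] at h2
  linarith

theorem cube_le_exp_sqrt (x : ℝ) (hx : 0 ≤ x) : x ^ 3 ≤ 720 * Real.exp (Real.sqrt x) := by
  have h := Real.pow_div_factorial_le_exp (Real.sqrt x) (Real.sqrt_nonneg x) 6
  have e : Real.sqrt x ^ 6 = x ^ 3 := by
    rw [show (6 : ℕ) = 2 * 3 from rfl, pow_mul, Real.sq_sqrt hx]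
  rw [e, div_le_iff₀ (by positivity)] at h
  norm_num [Nat.factorial] at h
  linarith

/-- Thin-buffer decoupling. -/
theorem tb (hE : EntStmt) (hC : CoreStmt) (hA : AmpStmt) : TBStmt := by
  intro q R J Δ hq hJ hΔ
  obtain ⟨γ, C₀, hγ, hγ4, hC₀, hC⟩ := hC q R J Δ hq hJ hΔ
  obtain ⟨ca, Ca, hca, hCa, hA⟩ := hA q R J Δ hq hJ hΔ
  have hlq : 0 ≤ Real.log q := Real.log_nonneg (by exact_mod_cast hq)
  have ev : ∀ᶠ n : ℕ in atTop, 5 * (n : ℝ) ^ (1 - γ) ≤ 1 * (n : ℝ) ^ (1 - γ / 2) ∧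
      C₀ * (n : ℝ) ^ (1 - 2 * γ) ≤ ca / 2 * (n : ℝ) ^ (1 - γ) ∧
      4 * (n : ℝ) ^ (1 / 2 : ℝ) ≤ ca / 2 * (n : ℝ) ^ (1 - γ) :=
    (ev_rpow_le (by linarith) one_pos).and ((ev_rpow_le (by linarith) (by linarith)).and
      (ev_rpow_le (by linarith) (by linarith)))
  obtain ⟨n₀, hn₀⟩ := eventually_atTop.1 ev
  set K₁ : ℝ := 10 * Real.sqrt (2 * Ca) * (Real.log q + 1) * 720 with hK₁
  set K₂ : ℝ := 2 * (n₀ : ℝ) ^ 2 * Real.log q * Real.exp (Real.sqrt n₀) with hK₂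
  have hK₁0 : 0 < K₁ := by positivity
  have hK₂0 : 0 ≤ K₂ := by positivity
  refine ⟨γ / 2, K₁ + K₂, by linarith, by linarith, by linarith, ?_⟩
  intro Λ _ _ s n m c hn hm
  obtain ⟨E1, E2, -, E4⟩ := hE q Λ s.Ω s.gap.1
  have hn1 : (1 : ℝ) ≤ n := by exact_mod_cast hn
  have c0 : ((c.P 0).card : ℝ) ≤ (n : ℝ) ^ 2 := by exact_mod_cast c.card_P (by omega)
  have cm : ((c.P m).card : ℝ) ≤ (n : ℝ) ^ 2 := by exact_mod_cast c.card_P le_rfl
  have hexp := Real.exp_pos (-Real.sqrt n)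
  rcases le_or_gt n₀ n with hge | hlt
  · obtain ⟨e1, e2, e3⟩ := hn₀ n hge
    have hu : (1 : ℝ) ≤ (n : ℝ) ^ (1 - γ) := Real.one_le_rpow hn1 (by linarith)
    set w : ℕ := m / 3 with hw
    have hw3 : 3 * w ≤ m := Nat.mul_div_le m 3
    have hw1 : (n : ℝ) ^ (1 - γ) ≤ w := by
      have h1 : m ≤ 3 * w + 2 := by omega
      have h2 : (m : ℝ) ≤ 3 * w + 2 := by exact_mod_cast h1
      linarith
    have hcore := hC Λ s n w (c.shift w w (by omega)) hn hw1
    rw [c.shift_P, c.shift_P, zero_add] at hcore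
    have hamp := hA Λ s (c.P 0) (c.P m)ᶜ (c.P w) (c.P (w + w))ᶜ w _
      (Finset.disjoint_left.2 fun x hx hx' => Finset.mem_compl.1 hx' (c.P_mono (by omega) hx))
      (fun x hx y hy => by simpa using c.edist_mem (by omega) hx hy)
      (fun x hx y hy => Finset.mem_compl.2 fun hy' => Finset.mem_compl.1 hx
        (c.P_mono (by omega) (c.edist_mem (w := w) (by omega) hy'
          (by rwa [SimpleGraph.edist_comm])))) hcore
    have hd : Disjoint (c.P 0) (c.P m)ᶜ :=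
      Finset.disjoint_left.2 fun x hx hx' => Finset.mem_compl.1 hx' (c.P_mono (by omega) hx)
    refine (E4 _ _ _ hd (by positivity) hamp).trans ?_
    have cb : (((c.P 0 ∪ (c.P m)ᶜ)ᶜ.card : ℕ) : ℝ) ≤ (n : ℝ) ^ 2 := by
      refine le_trans ?_ cm
      exact_mod_cast Finset.card_le_card fun x hx => by
        simp only [Finset.mem_compl, Finset.mem_union, not_or, not_not] at hx
        exact hx.2
    have hs : Real.sqrt (Ca * (((c.P 0 ∪ (c.P m)ᶜ)ᶜ.card : ℕ) + 1) *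
        Real.exp (C₀ * (n : ℝ) ^ (1 - 2 * γ) - ca * w)) ≤
        Real.sqrt (2 * Ca) * n * Real.exp (-(2 * Real.sqrt n)) := by
      rw [Real.sqrt_le_left (by positivity), mul_pow, mul_pow, Real.sq_sqrt (by positivity),
        ← Real.exp_nat_mul]
      have h1 : Ca * (((c.P 0 ∪ (c.P m)ᶜ)ᶜ.card : ℕ) + 1) ≤ 2 * Ca * (n : ℝ) ^ 2 := by
        nlinarith [one_le_pow₀ (n := 2) hn1]
      refine mul_le_mul h1 (Real.exp_le_exp.2 ?_) (by positivity) (by positivity)
      rw [Real.sqrt_eq_rpow]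
      push_cast
      nlinarith
    have h2 : ((c.P 0).card : ℝ) * Real.log q + 1 ≤ (n : ℝ) ^ 2 * (Real.log q + 1) := by
      nlinarith [one_le_pow₀ (n := 2) hn1]
    have h3 := cube_le_exp_sqrt n (by positivity)
    have h4 : Real.exp (Real.sqrt n) * Real.exp (-(2 * Real.sqrt n)) = Real.exp (-Real.sqrt n) := by
      rw [← Real.exp_add]; ring_nf
    calc _ ≤ 10 * (Real.sqrt (2 * Ca) * n * Real.exp (-(2 * Real.sqrt n))) *
          ((n : ℝ) ^ 2 * (Real.log q + 1)) := by gcongr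
      _ = 10 * Real.sqrt (2 * Ca) * (Real.log q + 1) * (n : ℝ) ^ 3 *
          Real.exp (-(2 * Real.sqrt n)) := by ring
      _ ≤ 10 * Real.sqrt (2 * Ca) * (Real.log q + 1) * (720 * Real.exp (Real.sqrt n)) *
          Real.exp (-(2 * Real.sqrt n)) := by gcongr
      _ = K₁ * Real.exp (-Real.sqrt n) := by rw [← h4, hK₁]; ring
      _ ≤ _ := by gcongr; linarith
  · have h1 : MI s.Ω (c.P 0) (c.P m)ᶜ ≤ 2 * (n₀ : ℝ) ^ 2 * Real.log q := by
      unfold MI
      have hn' : (n : ℝ) ^ 2 ≤ (n₀ : ℝ) ^ 2 := by gcongr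
      have a1 := (E2 (c.P 0)).2
      have a2 := (E2 (c.P m)).2
      have a3 := (E2 (c.P 0 ∪ (c.P m)ᶜ)).1
      rw [E1]
      nlinarith
    have h2 : 1 ≤ Real.exp (Real.sqrt n₀) * Real.exp (-Real.sqrt n) := by
      rw [← Real.exp_add]
      refine Real.one_le_exp ?_
      have : Real.sqrt n ≤ Real.sqrt n₀ := Real.sqrt_le_sqrt (by exact_mod_cast hlt.le)
      linarith
    calc _ ≤ 2 * (n₀ : ℝ) ^ 2 * Real.log q * 1 := by linarith
      _ ≤ 2 * (n₀ : ℝ) ^ 2 * Real.log q *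
          (Real.exp (Real.sqrt n₀) * Real.exp (-Real.sqrt n)) := by gcongr
      _ = K₂ * Real.exp (-Real.sqrt n) := by rw [hK₂]; ring
      _ ≤ _ := by gcongr; linarith

end Crest.Agent.N336
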