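import Crest.Agent.N336.Defs

/-!
# Row 336: S0522 from `AreaStmt` (helper43)
-/

set_option autoImplicit false

namespace Crest.Agent.N336

open Crest.MathPhysics.LatticeSpin

/-- The statement of S0522 from the area law in `Sys` form. -/
theorem s0522_of (hA : AreaStmt)
    (q R : ℕ) (J Δ : ℝ) (hq : 1 ≤ q) (hJ : 0 < J) (hΔ : 0 < Δ) :
    ∃ C : ℝ, ∀ (Λ₀ : Finset (ℤ × ℤ))
      (h : Finset ↥Λ₀ → Matrix (↥Λ₀ → Fin q) (↥Λ₀ → Fin q) ℂ),
      IsAdmissibleInteraction (latticeGraph Λ₀) R J h →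
      ∀ (Ω : EuclideanSpace ℂ (↥Λ₀ → Fin q)) (E₀ : ℝ),
        IsGappedGroundVector (∑ X, h X) Ω E₀ Δ →
        ∀ A : Finset ↥Λ₀, entanglementEntropy Ω A ≤ C * (edgeBoundaryCard Λ₀ A : ℝ) := by
  classical
  obtain ⟨C, hC, hA⟩ := hA q R J Δ hq hJ hΔ
  refine ⟨C, fun Λ₀ h hh Ω E₀ hΩ A => ?_⟩
  have hadj : ∀ x y : ↥Λ₀, (latticeGraph Λ₀).Adj x y → |x.1.1 - y.1.1| + |x.1.2 - y.1.2| = 1 := by
    intro x y hxy
    rw [latticeGraph, SimpleGraph.fromRel_adj] at hxy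
    rcases hxy.2 with h1 | h1
    · exact h1
    · rw [abs_sub_comm x.1.1, abs_sub_comm x.1.2]; exact h1
  let s : Sys q R J Δ ↥Λ₀ :=
    { pos := Subtype.val, inj := Subtype.val_injective, G := latticeGraph Λ₀, adj := hadj, h := h,
      adm := hh, Ω := Ω, E := E₀, gap := hΩ }
  refine (hA _ s A).trans (mul_le_mul_of_nonneg_left ?_ hC.le)
  have : s.bd A ≤ edgeBoundaryCard Λ₀ A := by
    unfold Sys.bd edgeBoundaryCard
    refine Finset.card_le_card fun p hp => ?_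
    rw [Finset.mem_filter] at hp ⊢
    exact ⟨hp.1, hadj _ _ hp.2⟩
  exact_mod_cast this

end Crest.Agent.N336
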