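import Crest.Agent.N336.C.Anc
import Crest.Agent.N336.C.Inst
import Crest.Agent.N336.C.Boot
import Crest.Agent.N336.C.Lsc
import Crest.Agent.N336.A.FF
import Crest.Agent.N336.A.Amp
import Crest.Agent.N336.T.PatchMain
import Crest.Agent.N336.T.SubMain
import Crest.Agent.N336.Q.EntMain
import Crest.Agent.N336.TB
import Crest.Agent.N336.Area.Main
import Crest.Agent.N336.Final
import Crest.Agent.N336.P.Asm
import Crest.Agent.N336.P.CL.Main
import Crest.Agent.N336.P.RT
import Crest.Agent.N336.P.Sound.Main
import Crest.Agent.N336.P.VW.Main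
import Crest.Agent.N336.P.Pt
import Crest.Agent.N336.P.Geo.Asm
import Crest.Agent.N336.P.Geo.Small
import Crest.Agent.N336.P.Geo.Macro
import Crest.Agent.N336.P.Geo.Routes
import Crest.Agent.N336.P.Geo.Rect

/-!
# Row 336: everything from the rigidity theorem (helper88)
-/

set_option autoImplicit false

namespace Crest.Agent.N336

theorem core_of (h : C.RigStmt) : CoreStmt :=
  C.boot ent subvol (C.step (C.anc h C.lsc) A.ff patch ent)

theorem area_of (h : C.RigStmt) : AreaStmt := area ent (tb ent (core_of h) amp)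

theorem vw_of (h : C.RigStmt) : P.VWStmt := P.vw ent (core_of h) amp (area_of h)

theorem pt_of (h : C.RigStmt) : P.PtStmt := P.pt patch (area_of h)

theorem geo_all : P.GeoStmt :=
  P.Geo.geo (P.Geo.small P.Geo.rect) (P.Geo.macro_ P.Geo.rect) P.Geo.routes

end Crest.Agent.N336
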